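import Vale.Agent.P214.BW2.Weak
import Vale.Agent.P214.BTWO.At

/-!
# P214, block B4-W2: adapter from `BTWO.At` and the regraph to `Geo`
-/

open Set Filter Topology MeasureTheory Metric
open scoped RealInnerProductSpace ContDiff

set_option linter.all false

namespace Vale.Agent.P214.BW2

open WIN STR BTWO

noncomputable section

variable {m n Q : ℕ} {E : Type*} [NormedAddCommGroup E] [InnerProductSpace ℝ E]
  [FiniteDimensional ℝ E] {T T' : Submodule ℝ E}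

lemma pt_sub (F' : Frame m n T') (u' : Fin n → REF.E m → ℝ) (z : E) (x : REF.E m) :
    pt F' u' z x - z = F'.up x + F'.lift u' (F'.up x) := by
  unfold pt; abel

lemma xc_pt_sub (F' : Frame m n T') (u' : Fin n → REF.E m → ℝ) (z : E) (x : REF.E m) :
    F'.xc (pt F' u' z x - z) = x := by
  rw [pt_sub, F'.xc_add, KMS.xc_up]
  have : F'.xc (F'.lift u' (F'.up x)) = 0 := by
    rw [← norm_eq_zero, F'.norm_xc, F'.star_lift, norm_zero]
  rw [this, add_zero]

lemma rel_pt (F' : Frame m n T') (u' : Fin n → REF.E m → ℝ) (z : E) (x : REF.E m) :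
    KMS.rel T' (F'.lift u') (pt F' u' z x - z) = 0 := by
  have h1 := pt_add_rl F' u' z (pt F' u' z x)
  rw [xc_pt_sub] at h1
  unfold rl at h1
  simpa using h1

/-- value of a reference of small slope -/
lemma val_le {u : Fin n → REF.E m → ℝ} {ε s : ℝ} (hs : 0 < s) (hu : ∀ a, ContDiff ℝ ∞ (u a))
    (h0 : ∀ a, |u a 0| ≤ ε * s)
    (h1 : ∀ a x, ‖iteratedFDeriv ℝ 1 (u a) x‖ ≤ ε * (s * s⁻¹ ^ 1)) (a : Fin n) (x : REF.E m) :
    |u a x| ≤ ε * (s + ‖x‖) := by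
  have h2 := lip_ball (hu a) (ρ := ‖x‖ + 1) (A := ε) (fun w _ => by
    have := h1 a w
    rwa [pow_one, mul_inv_cancel₀ hs.ne', mul_one] at this) (x := 0) (y := x)
    (by rw [norm_zero]; positivity) (lt_add_one _)
  rw [sub_zero] at h2
  have h3 := h0 a
  calc |u a x| = |(u a x - u a 0) + u a 0| := by ring_nf
    _ ≤ |u a x - u a 0| + |u a 0| := abs_add_le _ _
    _ ≤ ε * ‖x‖ + ε * s := add_le_add h2 h3
    _ = ε * (s + ‖x‖) := by ring

lemma lift_val_le (F : Frame m n T) {u : Fin n → REF.E m → ℝ} {ε s : ℝ} (hs : 0 < s)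
    (hu : ∀ a, ContDiff ℝ ∞ (u a)) (h0 : ∀ a, |u a 0| ≤ ε * s)
    (h1 : ∀ a x, ‖iteratedFDeriv ℝ 1 (u a) x‖ ≤ ε * (s * s⁻¹ ^ 1)) (y : E) :
    ‖F.lift u y‖ ≤ n * ε * (s + ‖F.xc y‖) := by
  refine (F.norm_lift_le u y).trans ?_
  calc ∑ a, |u a (F.xc y)| ≤ ∑ _a : Fin n, ε * (s + ‖F.xc y‖) :=
        Finset.sum_le_sum fun a _ => val_le hs hu h0 h1 a _
    _ = n * ε * (s + ‖F.xc y‖) := by
        rw [Finset.sum_const, Finset.card_univ, Fintype.card_fin, nsmul_eq_mul]; ring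

variable [MeasurableSpace E] [BorelSpace E]

/-- **`BTWO.At` and the regraph give `Geo`**; `r = s`, `ρ = 9/16 s`, `ρ' = 7/8 s`, `ρ₂ = 5/8 s` -/
theorem geo_of_at {F : Frame m n T} {F' : Frame m n T'} {ν : Measure E} [IsFiniteMeasure ν]
    {z : E} {ε s h b h' b' : ℝ} {u₀ u' u : Fin n → REF.E m → ℝ} (hs : 0 < s) (hε : 0 ≤ ε)
    (hε1 : 64 * (n + 1) * ε ≤ 1) (hA : At m n Q F ν 0 ε s h b u₀)
    (hA' : At m n Q F' ν z ε s h' b' u')
    (hTT : ‖T.starProjection - T'.starProjection‖ ≤ ε) (hz : ‖z‖ ≤ s / 8)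
    (hu : ∀ a, ContDiff ℝ ∞ (u a))
    (hbd : ∀ a, ∀ k, 1 ≤ k → k ≤ sW m + 1 → ∀ x, ‖x‖ < 5 / 8 * s →
      ‖iteratedFDeriv ℝ k (u a) x‖ ≤ s * s⁻¹ ^ k)
    (hsame : ∀ Y, KMS.rel T (F.lift u) Y = 0 ↔ KMS.rel T' (F'.lift u') (Y - z) = 0) :
    Geo F F' u u' z (sW m) s (9 / 16 * s) (7 / 8 * s) (5 / 8 * s) ν := by
  have hn : (0:ℝ) ≤ n := Nat.cast_nonneg n
  have hε2 : ε ≤ 1 / 64 := by nlinarith [mul_nonneg hn hε]
  have hnε : n * ε ≤ 1 / 64 := by nlinarith [mul_nonneg hn hε]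
  have hnε0 : 0 ≤ n * ε := mul_nonneg hn hε
  have hsm : ∀ a x, ‖iteratedFDeriv ℝ 1 (u₀ a) x‖ ≤ ε * (s * s⁻¹ ^ 1) := fun a x =>
    hA.small a 1 le_rfl (by unfold sW; omega) x
  have hsm' : ∀ a x, ‖iteratedFDeriv ℝ 1 (u' a) x‖ ≤ ε * (s * s⁻¹ ^ 1) := fun a x =>
    hA'.small a 1 le_rfl (by unfold sW; omega) x
  -- change of the plane
  have hpl : ∀ y, ‖T'.starProjection (y - z)‖ ≤ ‖T.starProjection y‖ + ‖z‖ + ε * ‖y - z‖ := by
    intro y
    have e1 : T'.starProjection (y - z) = T.starProjection (y - z)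
        - (T.starProjection - T'.starProjection) (y - z) := by
      simp
    have e2 : ‖(T.starProjection - T'.starProjection) (y - z)‖ ≤ ε * ‖y - z‖ :=
      (ContinuousLinearMap.le_opNorm _ _).trans (by gcongr)
    have e3 : ‖T.starProjection (y - z)‖ ≤ ‖T.starProjection y‖ + ‖z‖ := by
      rw [map_sub]
      refine (norm_sub_le _ _).trans ?_
      have := T.norm_starProjection_apply_le z
      linarith
    rw [e1]
    refine (norm_sub_le _ _).trans ?_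
    linarith
  refine ⟨hs, hu, hA'.smooth, hbd, fun a k h1 h2 x _ => ?_, fun x _ _ a => ?_, fun x hx => ?_, ?_,
    ?_, by linarith, measure_lt_top _ _⟩
  · refine (hA'.small a k h1 h2 x).trans ?_
    have : 0 ≤ s * s⁻¹ ^ k := by positivity
    nlinarith
  · have h1 := (hsame (pt F' u' z x)).2 (rel_pt F' u' z x)
    rw [← F.inner_rel, h1, inner_zero_right]
  · -- `dom`
    have h1 := hpl (pt F' u' z x)
    rw [← F'.norm_xc, xc_pt_sub, ← F.norm_xc] at h1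
    have h2 : ‖pt F' u' z x - z‖ ≤ ‖x‖ + n * ε * (s + ‖x‖) := by
      rw [pt_sub]
      refine (norm_add_le _ _).trans ?_
      have := lift_val_le F' hs hA'.smooth hA'.val hsm' (F'.up x)
      rw [KMS.xc_up] at this
      rw [norm_up]
      linarith
    have h3 : ε * ‖pt F' u' z x - z‖ ≤ 1 / 64 * (‖x‖ + 1 / 64 * (s + ‖x‖)) := by
      have h4 : n * ε * (s + ‖x‖) ≤ 1 / 64 * (s + ‖x‖) := by
        have : 0 ≤ s + ‖x‖ := by positivity
        nlinarith
      have h5 : ‖pt F' u' z x - z‖ ≤ ‖x‖ + 1 / 64 * (s + ‖x‖) := h2.trans (by linarith)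
      calc ε * ‖pt F' u' z x - z‖ ≤ ε * (‖x‖ + 1 / 64 * (s + ‖x‖)) := by gcongr
        _ ≤ _ := by
            have : 0 ≤ ‖x‖ + 1 / 64 * (s + ‖x‖) := by positivity
            nlinarith
    have hxnn := norm_nonneg x
    have h6 : ‖F.xc (pt F' u' z x)‖ < 9 / 16 * s := hx
    nlinarith
  · -- `out`
    filter_upwards [hA.slab] with y hy hyρ
    rw [sub_zero] at hy
    have h1 := hpl y
    rw [← F'.norm_xc, ← F.norm_xc] at h1
    have h2 := hy (hyρ.trans (by linarith))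
    have h3 := lift_val_le F hs hA.smooth hA.val hsm y
    have h4 : ‖y‖ ≤ ‖F.xc y‖ + (ε * s + n * ε * (s + ‖F.xc y‖)) := by
      have e1 : y = T.starProjection y + (KMS.rel T (F.lift u₀) y + F.lift u₀ y) := by
        unfold KMS.rel
        rw [FV.co_apply]; abel
      calc ‖y‖ ≤ ‖T.starProjection y‖ + (‖KMS.rel T (F.lift u₀) y‖ + ‖F.lift u₀ y‖) := by
            conv_lhs => rw [e1]
            exact (norm_add_le _ _).trans (add_le_add le_rfl (norm_add_le _ _))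
        _ ≤ _ := by rw [F.norm_xc] at h3 ⊢; linarith
    have h5 : ‖y - z‖ ≤ 2 * s := by
      have e1 : ‖y - z‖ ≤ ‖y‖ + ‖z‖ := norm_sub_le _ _
      have e2 : n * ε * (s + ‖F.xc y‖) ≤ 1 / 64 * (2 * s) := by
        have : 0 ≤ s + ‖F.xc y‖ := by positivity
        nlinarith
      nlinarith
    have h6 : ε * ‖y - z‖ ≤ 1 / 32 * s := by
      calc ε * ‖y - z‖ ≤ 1 / 64 * (2 * s) := by gcongr
        _ = _ := by ring
    linarith
  · -- `slab`
    filter_upwards [hA'.slab] with y hy hyρ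
    refine (hy (hyρ.trans (by linarith))).trans ?_
    nlinarith

/-- **[B4-W2], final form** -/
theorem weak_at (m n : ℕ) : ∃ C : ℝ, 0 ≤ C ∧ ∀ {E : Type*}
    [NormedAddCommGroup E] [InnerProductSpace ℝ E] [FiniteDimensional ℝ E] [MeasurableSpace E]
    [BorelSpace E] {Q : ℕ} {T T' : Submodule ℝ E} {F : Frame m n T} {F' : Frame m n T'}
    {ν : Measure E} [IsFiniteMeasure ν] {z : E} {ε s h b h' b' : ℝ}
    {u₀ u' u : Fin n → REF.E m → ℝ}, 0 < s → 0 ≤ ε → 64 * (n + 1) * ε ≤ 1 → 0 < h' →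
    At m n Q F ν 0 ε s h b u₀ → At m n Q F' ν z ε s h' b' u' →
    ‖T.starProjection - T'.starProjection‖ ≤ ε → ‖z‖ ≤ s / 8 →
    (∀ a, ContDiff ℝ ∞ (u a)) →
    (∀ a, ∀ k, 1 ≤ k → k ≤ sW m + 1 → ∀ x, ‖x‖ < 5 / 8 * s →
      ‖iteratedFDeriv ℝ k (u a) x‖ ≤ s * s⁻¹ ^ k) →
    (∀ Y, KMS.rel T (F.lift u) Y = 0 ↔ KMS.rel T' (F'.lift u') (Y - z) = 0) →
    ∀ (φ : Fin n → REF.E m → ℝ) (M : ℝ), TstR (sW m) s (9 / 16 * s) M φ →
      |∫ y, ∑ a, φ a (F.xc y) * F.ht u a y ∂ν| ≤ C * (s ^ (m + 1) * h' ^ b') * M := by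
  obtain ⟨C, hC, hT⟩ := weak_transfer m n (sW m) (by unfold sW; omega)
  refine ⟨2 * C, by positivity, ?_⟩
  intro E _ _ _ _ _ Q T T' F F' ν _ z ε s h b h' b' u₀ u' u hs hε hε1 hh hA hA' hTT hz hu hbd
    hsame φ M hφ
  have H := geo_of_at hs hε hε1 hA hA' hTT hz hu hbd hsame
  have hw : ∀ (φ : Fin n → REF.E m → ℝ) (M : ℝ), TstR (sW m) s (7 / 8 * s) M φ →
      |∫ y, ∑ b, φ b (F'.xc (y - z)) * F'.ht u' b (y - z) ∂ν| ≤ (s ^ (m + 1) * h' ^ b') * M :=
    fun φ M hφ => hA'.weak φ M ⟨hφ.smooth, fun a x hx => hφ.supp a x (by linarith), hφ.bd⟩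
  have key := hT H hw φ M hφ
  rcases Nat.eq_zero_or_pos n with hn0 | hn0
  · subst hn0
    have h1 : TstR (sW m) s (7 / 8 * s) (-1) (fun (_ : Fin 0) (_ : REF.E m) => (0:ℝ)) :=
      ⟨fun a => a.elim0, fun a => a.elim0, fun a => a.elim0⟩
    have h2 := (abs_nonneg _).trans (hw _ _ h1)
    have h3 : 0 ≤ s ^ (m + 1) * h' ^ b' := mul_nonneg (by positivity) (Real.rpow_nonneg hh.le _)
    have h4 : s ^ (m + 1) * h' ^ b' = 0 := by linarith
    have e1 : ∀ y, ∑ a : Fin 0, φ a (F.xc y) * F.ht u a y = 0 := fun y => by simp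
    simp only [e1, integral_zero, abs_zero, h4]
    simp
  · haveI : NeZero n := ⟨by omega⟩
    have hM : 0 ≤ M := TstR.M_nn hφ
    refine key.trans ?_
    set S : Set E := {y | ‖F'.xc (y - z)‖ < 7 / 8 * s} with hS
    set S₁ : Set E := {y | ‖F'.xc (y - z)‖ < s} with hS₁
    have hcont : Continuous fun y => ‖F'.xc (y - z)‖ :=
      (F'.continuous_xc.comp (continuous_id.sub continuous_const)).norm
    have hm1 : MeasurableSet S₁ := (isOpen_lt hcont continuous_const).measurableSet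
    have hVc : Continuous fun y => KMS.rel T' (F'.lift u') (y - z) := by
      unfold KMS.rel
      exact ((FV.co T').continuous.comp (continuous_id.sub continuous_const)).sub
        ((F'.continuous_lift fun a => (hA'.smooth a).continuous).comp
          (continuous_id.sub continuous_const))
    have hi : IntegrableOn (fun y => ‖KMS.rel T' (F'.lift u') (y - z)‖ ^ 2) S₁ ν := by
      refine Integrable.mono' (integrable_const ((ε * s) ^ 2))
        ((hVc.norm.pow 2).aestronglyMeasurable) ?_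
      filter_upwards [ae_restrict_of_ae (s := S₁) hA'.slab, ae_restrict_mem hm1] with y h1 h2
      rw [Real.norm_eq_abs, abs_of_nonneg (by positivity)]
      have := h1 h2
      gcongr
    have h5 : ∫ y in S, ‖KMS.rel T' (F'.lift u') (y - z)‖ ^ 2 ∂ν ≤ s ^ (m + 2) * h' ^ b' :=
      (setIntegral_mono_set hi (Eventually.of_forall fun y => by positivity)
        (Eventually.of_forall fun y (hy : ‖F'.xc (y - z)‖ < 7 / 8 * s) =>
          (lt_of_lt_of_le hy (by linarith) : ‖F'.xc (y - z)‖ < s))).trans hA'.l2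
    have h6 : s⁻¹ * ∫ y in S, ‖KMS.rel T' (F'.lift u') (y - z)‖ ^ 2 ∂ν
        ≤ s ^ (m + 1) * h' ^ b' := by
      calc s⁻¹ * ∫ y in S, ‖KMS.rel T' (F'.lift u') (y - z)‖ ^ 2 ∂ν
          ≤ s⁻¹ * (s ^ (m + 2) * h' ^ b') := by gcongr
        _ = s ^ (m + 1) * h' ^ b' := by
            rw [pow_succ s (m + 1)]; field_simp
    calc C * M * (s ^ (m + 1) * h' ^ b'
          + s⁻¹ * ∫ y in S, ‖KMS.rel T' (F'.lift u') (y - z)‖ ^ 2 ∂ν)
        ≤ C * M * (s ^ (m + 1) * h' ^ b' + s ^ (m + 1) * h' ^ b') := by gcongr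
      _ = 2 * C * (s ^ (m + 1) * h' ^ b') * M := by ring

end

end Vale.Agent.P214.BW2
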