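import Vale.Agent.P214.BW2.Scal
import Vale.Agent.P214.STR.Props
import Vale.Agent.P214.ALL.Frame
import Vale.Agent.P214.KMS.Frame

/-!
# P214, block B4-W2: transfer of the weak smallness to another plane and another centre

A reference `u'` over the plane `T'` with centre `z` and a reference `u` over `T` with the same
graph.  If the relative height of `u'` is weakly small, then so is the relative height of `u`, up to
the integral of the square of the relative height.
-/

open Set Filter Topology MeasureTheory Metric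
open scoped RealInnerProductSpace ContDiff

set_option linter.all false

namespace Vale.Agent.P214.BW2

open WIN STR

noncomputable section

variable {m n : ℕ} {E : Type*} [NormedAddCommGroup E] [InnerProductSpace ℝ E]
  [FiniteDimensional ℝ E]
variable {T T' : Submodule ℝ E}

/-- the point of the graph of `u'` (centre `z`) over the base point `x` -/
def pt (F' : Frame m n T') (u' : Fin n → REF.E m → ℝ) (z : E) (x : REF.E m) : E :=
  z + F'.up x + F'.lift u' (F'.up x)

/-- the relative height of `u'` with centre `z` -/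
def rl (F' : Frame m n T') (u' : Fin n → REF.E m → ℝ) (z y : E) : E :=
  KMS.rel T' (F'.lift u') (y - z)

variable [MeasurableSpace E] [BorelSpace E]

/-- the geometric situation: the graph of `u` over `T` is the graph of `u'` over `T'` with
centre `z` -/
structure Geo (F : Frame m n T) (F' : Frame m n T') (u u' : Fin n → REF.E m → ℝ) (z : E) (K : ℕ)
    (r ρ ρ' ρ₂ : ℝ) (ν : Measure E) : Prop where
  r_pos : 0 < r
  smooth : ∀ a, ContDiff ℝ ∞ (u a)
  smooth' : ∀ a, ContDiff ℝ ∞ (u' a)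
  bd : ∀ a, ∀ k, 1 ≤ k → k ≤ K + 1 → ∀ x, ‖x‖ < ρ₂ → ‖iteratedFDeriv ℝ k (u a) x‖ ≤ r * r⁻¹ ^ k
  bd' : ∀ a, ∀ k, 1 ≤ k → k ≤ K → ∀ x, ‖x‖ < ρ' → ‖iteratedFDeriv ℝ k (u' a) x‖ ≤ r * r⁻¹ ^ k
  graph : ∀ x, ‖x‖ < ρ' → ‖F.xc (pt F' u' z x)‖ < ρ₂ → ∀ a, F.ht u a (pt F' u' z x) = 0
  dom : ∀ x, ‖F.xc (pt F' u' z x)‖ < ρ → ‖x‖ < ρ'
  out : ∀ᵐ y ∂ν, ‖F.xc y‖ < ρ → ‖F'.xc (y - z)‖ < ρ'
  slab : ∀ᵐ y ∂ν, ‖F'.xc (y - z)‖ < ρ' → ‖rl F' u' z y‖ ≤ ρ₂ - ρ
  rho_le : ρ ≤ ρ₂
  fin : ν {y | ‖F'.xc (y - z)‖ < ρ'} < ⊤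

variable {F : Frame m n T} {F' : Frame m n T'} {u u' : Fin n → REF.E m → ℝ} {z : E} {K : ℕ}
  {r ρ ρ' ρ₂ : ℝ} {ν : Measure E}

/-- the base point over `T` of the point of the graph over `x` -/
def gb (F : Frame m n T) (F' : Frame m n T') (u' : Fin n → REF.E m → ℝ) (z : E)
    (x : REF.E m) : REF.E m := F.xc (pt F' u' z x)

/-- the coefficients -/
def cf (F : Frame m n T) (F' : Frame m n T') (u : Fin n → REF.E m → ℝ) (a b : Fin n)
    (x : REF.E m) : ℝ :=
  ⟪((F.bN a : Tᗮ) : E), ((F'.bN b : T'ᗮ) : E)⟫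
    - fderiv ℝ (u a) x (F.xc ((F'.bN b : T'ᗮ) : E))

/-- the new test functions -/
def Ph (F : Frame m n T) (F' : Frame m n T') (u u' : Fin n → REF.E m → ℝ) (z : E)
    (φ : Fin n → REF.E m → ℝ) (b : Fin n) (x : REF.E m) : ℝ :=
  ∑ a, φ a (gb F F' u' z x) * cf F F' u a b (gb F F' u' z x)

lemma norm_xc_le (F : Frame m n T) (y : E) : ‖F.xc y‖ ≤ ‖y‖ := by
  rw [F.norm_xc]; exact T.norm_starProjection_apply_le y

lemma up_eq (F' : Frame m n T') : F'.up = fun x => (F'.bT.repr.symm x : E) := rfl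

lemma norm_up (F' : Frame m n T') (x : REF.E m) : ‖F'.up x‖ = ‖x‖ := by
  unfold Frame.up
  rw [← Submodule.coe_norm, LinearIsometryEquiv.norm_map]

/-- `up` as a continuous linear map -/
def upL (F' : Frame m n T') : REF.E m →L[ℝ] E :=
  T'.subtypeL.comp (F'.bT.repr.symm.toContinuousLinearEquiv : REF.E m →L[ℝ] T')

lemma upL_apply (F' : Frame m n T') (x : REF.E m) : upL F' x = F'.up x := rfl

lemma gb_eq (F : Frame m n T) (F' : Frame m n T') (u' : Fin n → REF.E m → ℝ) (z : E)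
    (x : REF.E m) : gb F F' u' z x
      = F.xc z + F.xc (F'.up x) + ∑ b, u' b x • F.xc ((F'.bN b : T'ᗮ) : E) := by
  unfold gb pt Frame.lift
  rw [F.xc_add, F.xc_add]
  congr 1
  rw [← F.xcL_apply, map_sum]
  refine Finset.sum_congr rfl fun b _ => ?_
  rw [map_smul, KMS.xc_up]
  rfl

lemma contDiff_gb (hu' : ∀ a, ContDiff ℝ ∞ (u' a)) : ContDiff ℝ ∞ (gb F F' u' z) := by
  have h1 : gb F F' u' z = fun x => F.xc z + (F.xcL.comp (upL F')) x
      + ∑ b, u' b x • F.xc ((F'.bN b : T'ᗮ) : E) := by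
    funext x; rw [gb_eq]; rfl
  rw [h1]
  refine (contDiff_const.add (ContinuousLinearMap.contDiff _)).add ?_
  exact ContDiff.sum fun b _ => (hu' b).smul contDiff_const

/-- derivatives of the base point map -/
lemma gb_bd (hr : 0 < r) (hu' : ∀ a, ContDiff ℝ ∞ (u' a)) {i : ℕ} (hi : 1 ≤ i) {x : REF.E m}
    (h : ∀ a, ‖iteratedFDeriv ℝ i (u' a) x‖ ≤ r * r⁻¹ ^ i) :
    ‖iteratedFDeriv ℝ i (gb F F' u' z) x‖ ≤ (1 + n) ^ i * (r * r⁻¹ ^ i) := by
  have hpos : 0 ≤ r * r⁻¹ ^ i := by positivity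
  set L : REF.E m →L[ℝ] REF.E m := F.xcL.comp (upL F') with hL
  have hLn : ‖L‖ ≤ 1 := by
    refine ContinuousLinearMap.opNorm_le_bound _ zero_le_one fun x => ?_
    rw [one_mul]
    calc ‖L x‖ = ‖F.xc (F'.up x)‖ := rfl
      _ ≤ ‖F'.up x‖ := norm_xc_le F _
      _ = ‖x‖ := norm_up F' x
  have hLi : ContDiff ℝ i L := ContinuousLinearMap.contDiff _
  have h1 : gb F F' u' z = fun x => (F.xc z + L x)
      + ∑ b, u' b x • F.xc ((F'.bN b : T'ᗮ) : E) := by
    funext x; rw [gb_eq]; rfl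
  have hui : ∀ b, ContDiff ℝ i (fun x => u' b x • F.xc ((F'.bN b : T'ᗮ) : E)) := fun b =>
    ((hu' b).of_le (by exact_mod_cast le_top)).smul contDiff_const
  have h2 : ContDiff ℝ i (fun x => F.xc z + L x) := contDiff_const.add hLi
  have h3 : ContDiff ℝ i (fun x => ∑ b, u' b x • F.xc ((F'.bN b : T'ᗮ) : E)) :=
    ContDiff.sum fun b _ => hui b
  have e1 : iteratedFDeriv ℝ i (gb F F' u' z) x = iteratedFDeriv ℝ i (fun x => F.xc z + L x) x
      + iteratedFDeriv ℝ i (fun x => ∑ b, u' b x • F.xc ((F'.bN b : T'ᗮ) : E)) x := by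
    rw [h1]
    exact iteratedFDeriv_add_apply' h2.contDiffAt h3.contDiffAt
  have e2 : ‖iteratedFDeriv ℝ i (fun x => F.xc z + L x) x‖ ≤ r * r⁻¹ ^ i := by
    have e3 : iteratedFDeriv ℝ i (fun x => F.xc z + L x) x = iteratedFDeriv ℝ i L x := by
      have := iteratedFDeriv_add_apply' (𝕜 := ℝ) (i := i) (x := x) (f := fun _ => F.xc z)
        (g := fun x => L x) contDiff_const.contDiffAt hLi.contDiffAt
      rw [this, iteratedFDeriv_const_of_ne (by omega)]
      simp
    rw [e3]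
    rcases Nat.lt_or_ge i 2 with h4 | h4
    · have h5 : i = 1 := by omega
      subst h5
      rw [norm_iteratedFDeriv_one, L.fderiv, pow_one, mul_inv_cancel₀ hr.ne']
      exact hLn
    · have h5 : iteratedFDeriv ℝ i L x = 0 := by
        obtain ⟨j, rfl⟩ := Nat.exists_eq_add_of_le h4
        rw [← norm_eq_zero, show 2 + j = (j + 1) + 1 by ring, ← norm_iteratedFDeriv_fderiv]
        have h6 : fderiv ℝ L = fun _ => L := by funext y; exact L.fderiv
        rw [h6, iteratedFDeriv_const_of_ne (by omega)]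
        simp
      rw [h5, norm_zero]
      exact hpos
  have e4 : ‖iteratedFDeriv ℝ i (fun x => ∑ b, u' b x • F.xc ((F'.bN b : T'ᗮ) : E)) x‖
      ≤ n * (r * r⁻¹ ^ i) := by
    rw [iteratedFDeriv_fun_sum_apply (fun b _ => (hui b).contDiffAt)]
    refine (norm_sum_le _ _).trans ?_
    calc ∑ b, ‖iteratedFDeriv ℝ i (fun x => u' b x • F.xc ((F'.bN b : T'ᗮ) : E)) x‖
        ≤ ∑ _b : Fin n, r * r⁻¹ ^ i := by
          refine Finset.sum_le_sum fun b _ => ?_
          set v := F.xc ((F'.bN b : T'ᗮ) : E) with hv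
          have hv1 : ‖v‖ ≤ 1 := (norm_xc_le F _).trans_eq (F'.norm_bN b)
          have h6 : (fun x => u' b x • v)
              = (ContinuousLinearMap.smulRight (1 : ℝ →L[ℝ] ℝ) v) ∘ (u' b) := by
            funext y; simp
          rw [h6]
          refine (ContinuousLinearMap.norm_iteratedFDeriv_comp_left _
            (((hu' b).of_le (by exact_mod_cast le_top) : ContDiff ℝ i (u' b)).contDiffAt)
            le_rfl).trans ?_
          have h7 : ‖ContinuousLinearMap.smulRight (1 : ℝ →L[ℝ] ℝ) v‖ ≤ 1 := by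
            rw [ContinuousLinearMap.norm_smulRight_apply]
            simpa using hv1
          calc _ ≤ 1 * (r * r⁻¹ ^ i) := mul_le_mul h7 (h b) (norm_nonneg _) zero_le_one
            _ = _ := one_mul _
      _ = n * (r * r⁻¹ ^ i) := by simp
  rw [e1]
  calc _ ≤ r * r⁻¹ ^ i + n * (r * r⁻¹ ^ i) := (norm_add_le _ _).trans (add_le_add e2 e4)
    _ = (1 + n) * (r * r⁻¹ ^ i) := by ring
    _ ≤ (1 + n) ^ i * (r * r⁻¹ ^ i) := by
        refine mul_le_mul_of_nonneg_right ?_ hpos
        exact le_self_pow₀ (by norm_cast; omega) (by omega)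

lemma contDiff_cf (hu : ∀ a, ContDiff ℝ ∞ (u a)) (a b : Fin n) :
    ContDiff ℝ ∞ (cf F F' u a b) := by
  unfold cf
  exact contDiff_const.sub (((hu a).fderiv_right (m := ∞) (by simp)).clm_apply contDiff_const)

/-- derivatives of the coefficients -/
lemma cf_bd (hr : 0 < r) (hu : ∀ a, ContDiff ℝ ∞ (u a)) (a b : Fin n) (i : ℕ) {x : REF.E m}
    (h : ‖iteratedFDeriv ℝ (i + 1) (u a) x‖ ≤ r * r⁻¹ ^ (i + 1)) :
    ‖iteratedFDeriv ℝ i (cf F F' u a b) x‖ ≤ 2 * r⁻¹ ^ i := by
  have hr0 : r ≠ 0 := hr.ne'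
  have e0 : r * r⁻¹ ^ (i + 1) = r⁻¹ ^ i := by
    rw [pow_succ]; field_simp
  rw [e0] at h
  set v := F.xc ((F'.bN b : T'ᗮ) : E) with hv
  have hv1 : ‖v‖ ≤ 1 := (norm_xc_le F _).trans_eq (F'.norm_bN b)
  have h1 := dir_le (r := r) (hu a) v hv1 i x h
  set c : ℝ := ⟪((F.bN a : Tᗮ) : E), ((F'.bN b : T'ᗮ) : E)⟫ with hc
  have hc1 : |c| ≤ 1 := by
    refine (abs_real_inner_le_norm _ _).trans ?_
    rw [F.norm_bN, F'.norm_bN, one_mul]
  have hD : ContDiff ℝ i (fun y => fderiv ℝ (u a) y v) :=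
    (((hu a).fderiv_right (m := ∞) (by simp)).clm_apply contDiff_const).of_le
      (by exact_mod_cast le_top)
  have e1 : cf F F' u a b = fun y => c - fderiv ℝ (u a) y v := rfl
  have e2 : iteratedFDeriv ℝ i (cf F F' u a b) x = iteratedFDeriv ℝ i (fun _ : REF.E m => c) x
      - iteratedFDeriv ℝ i (fun y => fderiv ℝ (u a) y v) x := by
    rw [e1]
    exact iteratedFDeriv_sub_apply (f := fun _ : REF.E m => c) contDiff_const.contDiffAt
      hD.contDiffAt
  rw [e2]
  rcases Nat.eq_zero_or_pos i with h0 | h0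
  · subst h0
    rw [pow_zero] at h1 ⊢
    have h3 : ‖iteratedFDeriv ℝ 0 (fun _ : REF.E m => c) x‖ ≤ 1 := by
      rw [norm_iteratedFDeriv_zero]; exact hc1
    calc _ ≤ 1 + 1 := (norm_sub_le _ _).trans (add_le_add h3 h1)
      _ = 2 * 1 := by norm_num
  · rw [iteratedFDeriv_const_of_ne (by omega)]
    simp only [Pi.zero_apply, zero_sub, norm_neg]
    have : (0:ℝ) ≤ r⁻¹ ^ i := by positivity
    linarith

/-- the constant of the test functions -/
def CW (n K : ℕ) : ℝ := n * (2 ^ K * ((K.factorial * (1 + n) ^ K) * (K.factorial * 2 * (1 + n) ^ K)))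

lemma CW_nn (n K : ℕ) : 0 ≤ CW n K := by unfold CW; positivity

lemma TstR.M_nn [NeZero n] {φ : Fin n → REF.E m → ℝ} {M : ℝ} (hφ : TstR K r ρ M φ) : 0 ≤ M := by
  have h := hφ.bd 0 0 (Nat.zero_le _) 0
  rw [pow_zero, mul_one] at h
  exact (norm_nonneg _).trans h

/-- **the new test functions are admissible** -/
lemma Geo.tst (H : Geo F F' u u' z K r ρ ρ' ρ₂ ν) {φ : Fin n → REF.E m → ℝ} {M : ℝ}
    (hM : 0 ≤ M) (hφ : TstR K r ρ M φ) : TstR K r ρ' (CW n K * M) (Ph F F' u u' z φ) := by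
  have hr := H.r_pos
  have hg := contDiff_gb (F := F) (F' := F') (z := z) H.smooth'
  have hfa : ∀ a, ContDiff ℝ ∞ fun x => φ a (gb F F' u' z x) := fun a => (hφ.smooth a).comp hg
  have hca : ∀ a b, ContDiff ℝ ∞ fun x => cf F F' u a b (gb F F' u' z x) := fun a b =>
    (contDiff_cf H.smooth a b).comp hg
  refine ⟨fun b => ?_, fun b x hx => ?_, fun b k hk x => ?_⟩
  · exact ContDiff.sum fun a _ => (hfa a).mul (hca a b)
  · refine Finset.sum_eq_zero fun a _ => ?_
    have h1 : ρ ≤ ‖gb F F' u' z x‖ := by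
      by_contra h
      exact absurd (H.dom x (not_le.1 h)) (not_lt.2 hx)
    rw [hφ.supp a _ h1, zero_mul]
  · have hkK : ∀ i, i ≤ k → i ≤ K := fun i hi => hi.trans hk
    have hsum : ‖iteratedFDeriv ℝ k (Ph F F' u u' z φ b) x‖
        ≤ ∑ a, ‖iteratedFDeriv ℝ k (fun x => φ a (gb F F' u' z x)
          * cf F F' u a b (gb F F' u' z x)) x‖ := by
      have e1 : Ph F F' u u' z φ b = fun x => ∑ a, φ a (gb F F' u' z x)
          * cf F F' u a b (gb F F' u' z x) := rfl
      rw [e1, iteratedFDeriv_fun_sum_apply (fun a _ => (((hfa a).mul (hca a b)).of_le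
        (by exact_mod_cast le_top)).contDiffAt)]
      exact norm_sum_le _ _
    refine hsum.trans ?_
    have hgoal : ∀ a, ‖iteratedFDeriv ℝ k (fun x => φ a (gb F F' u' z x)
        * cf F F' u a b (gb F F' u' z x)) x‖
        ≤ 2 ^ K * ((K.factorial * (1 + n) ^ K) * (K.factorial * 2 * (1 + n) ^ K)) * M
          * r⁻¹ ^ k := by
      intro a
      by_cases hx : ‖gb F F' u' z x‖ < ρ
      · have hx' : ‖x‖ < ρ' := H.dom x hx
        have hx2 : ‖gb F F' u' z x‖ < ρ₂ := hx.trans_le H.rho_le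
        have hgb : ∀ i, 1 ≤ i → i ≤ k → ‖iteratedFDeriv ℝ i (gb F F' u' z) x‖
            ≤ (1 + n) ^ i * (r * r⁻¹ ^ i) := fun i h1 h2 =>
          gb_bd hr H.smooth' h1 fun a => H.bd' a i h1 (hkK i h2) x hx'
        have h1 : ∀ i ≤ k, ‖iteratedFDeriv ℝ i (fun x => φ a (gb F F' u' z x)) x‖
            ≤ (K.factorial * M * (1 + n) ^ K) * r⁻¹ ^ i := by
          intro i hi
          have h2 := comp_le (hφ.smooth a) hg hr (A := M) (B := 1 + n) i x
            (fun j hj => hφ.bd a j (hkK j (hj.trans hi)) _)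
            (fun j h3 h4 => hgb j h3 (h4.trans hi))
          refine h2.trans ?_
          have hf : (i.factorial : ℝ) ≤ K.factorial := by
            exact_mod_cast Nat.factorial_le (hkK i hi)
          have hp : ((1:ℝ) + n) ^ i ≤ (1 + n) ^ K :=
            pow_le_pow_right₀ (by norm_cast; omega) (hkK i hi)
          gcongr
        have h2 : ∀ i ≤ k, ‖iteratedFDeriv ℝ i (fun x => cf F F' u a b (gb F F' u' z x)) x‖
            ≤ (K.factorial * 2 * (1 + n) ^ K) * r⁻¹ ^ i := by
          intro i hi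
          have h2 := comp_le (contDiff_cf (F := F) (F' := F') H.smooth a b) hg hr (A := 2)
            (B := 1 + n) i x
            (fun j hj => cf_bd hr H.smooth a b j (H.bd a (j + 1) (by omega)
              (by have := hkK j (hj.trans hi); omega) _ hx2))
            (fun j h3 h4 => hgb j h3 (h4.trans hi))
          refine h2.trans ?_
          have hf : (i.factorial : ℝ) ≤ K.factorial := by
            exact_mod_cast Nat.factorial_le (hkK i hi)
          have hp : ((1:ℝ) + n) ^ i ≤ (1 + n) ^ K :=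
            pow_le_pow_right₀ (by norm_cast; omega) (hkK i hi)
          gcongr
        have h3 := mul_le (hfa a) (hca a b) hr (by positivity) k x h1 h2
        refine h3.trans ?_
        have hp : (2:ℝ) ^ k ≤ 2 ^ K := pow_le_pow_right₀ one_le_two hk
        calc 2 ^ k * (K.factorial * M * (1 + n) ^ K * (K.factorial * 2 * (1 + n) ^ K)) * r⁻¹ ^ k
            ≤ 2 ^ K * (K.factorial * M * (1 + n) ^ K * (K.factorial * 2 * (1 + n) ^ K))
              * r⁻¹ ^ k := by gcongr
          _ = _ := by ring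
      · -- all derivatives of the first factor vanish
        have h0 : ∀ j, iteratedFDeriv ℝ j (φ a) (gb F F' u' z x) = 0 := fun j =>
          iter_zero (hφ.smooth a) (fun y hy => hφ.supp a y hy) j (not_lt.1 hx)
        have h1 : ∀ i ≤ k, ‖iteratedFDeriv ℝ i (fun x => φ a (gb F F' u' z x)) x‖ ≤ 0 := by
          intro i hi
          -- unscaled composition bound with a huge `D`
          have hDex : ∃ D : ℝ, 1 ≤ D ∧ ∀ j, 1 ≤ j → j ≤ i →
              ‖iteratedFDeriv ℝ j (gb F F' u' z) x‖ ≤ D ^ j := by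
            refine ⟨1 + ∑ j ∈ Finset.range (i + 1), ‖iteratedFDeriv ℝ j (gb F F' u' z) x‖, ?_, ?_⟩
            · have : 0 ≤ ∑ j ∈ Finset.range (i + 1), ‖iteratedFDeriv ℝ j (gb F F' u' z) x‖ :=
                Finset.sum_nonneg fun _ _ => norm_nonneg _
              linarith
            · intro j hj1 hj2
              have h2 : ‖iteratedFDeriv ℝ j (gb F F' u' z) x‖
                  ≤ ∑ j ∈ Finset.range (i + 1), ‖iteratedFDeriv ℝ j (gb F F' u' z) x‖ :=
                Finset.single_le_sum (f := fun j => ‖iteratedFDeriv ℝ j (gb F F' u' z) x‖)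
                  (fun _ _ => norm_nonneg _) (Finset.mem_range.2 (by omega))
              have h3 : 0 ≤ ∑ j ∈ Finset.range (i + 1),
                  ‖iteratedFDeriv ℝ j (gb F F' u' z) x‖ := (norm_nonneg _).trans h2
              calc _ ≤ 1 + ∑ j ∈ Finset.range (i + 1), ‖iteratedFDeriv ℝ j (gb F F' u' z) x‖ := by
                    linarith
                _ ≤ _ := le_self_pow₀ (by linarith) (by omega)
          obtain ⟨D, hD1, hD⟩ := hDex
          have h2 := norm_iteratedFDeriv_comp_le (n := i) (N := ∞) (hφ.smooth a) hg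
            (by exact_mod_cast le_top) x (C := 0) (D := D)
            (fun j _ => by rw [h0 j, norm_zero]) hD
          have h3 : (φ a ∘ gb F F' u' z) = fun x => φ a (gb F F' u' z x) := rfl
          rw [h3] at h2
          simpa using h2
        have h3 := norm_iteratedFDeriv_mul_le (n := k) (N := ∞) (hfa a) (hca a b) x
          (by exact_mod_cast le_top)
        refine h3.trans ?_
        have h4 : ∑ i ∈ Finset.range (k + 1), (k.choose i : ℝ)
            * ‖iteratedFDeriv ℝ i (fun x => φ a (gb F F' u' z x)) x‖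
            * ‖iteratedFDeriv ℝ (k - i) (fun x => cf F F' u a b (gb F F' u' z x)) x‖ = 0 := by
          refine Finset.sum_eq_zero fun i hi => ?_
          have h5 := h1 i (Nat.lt_succ_iff.1 (Finset.mem_range.1 hi))
          have h6 : ‖iteratedFDeriv ℝ i (fun x => φ a (gb F F' u' z x)) x‖ = 0 :=
            le_antisymm h5 (norm_nonneg _)
          rw [h6]; ring
        rw [h4]
        positivity
    calc ∑ a, ‖iteratedFDeriv ℝ k (fun x => φ a (gb F F' u' z x)
          * cf F F' u a b (gb F F' u' z x)) x‖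
        ≤ ∑ _a : Fin n, 2 ^ K * ((K.factorial * (1 + n) ^ K) * (K.factorial * 2 * (1 + n) ^ K)) * M
          * r⁻¹ ^ k := Finset.sum_le_sum fun a _ => hgoal a
      _ = CW n K * M * r⁻¹ ^ k := by
          rw [Finset.sum_const, Finset.card_univ, Fintype.card_fin, nsmul_eq_mul]
          unfold CW
          ring

end

end Vale.Agent.P214.BW2
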