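import Mathlib.Analysis.Calculus.ContDiff.Bounds
import Mathlib.Analysis.Calculus.IteratedDeriv.Lemmas
import Mathlib.Analysis.Calculus.MeanValue
import Mathlib.Analysis.Calculus.Taylor

/-!
# P214, block B4-W2: scaled bounds of iterated derivatives

Derivatives are measured at scale `r`.
-/

open Set Filter Topology Metric
open scoped ContDiff

set_option linter.all false

namespace Vale.Agent.P214.BW2

noncomputable section

variable {D F G : Type*} [NormedAddCommGroup D] [NormedSpace ℝ D] [NormedAddCommGroup F]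
  [NormedSpace ℝ F] [NormedAddCommGroup G] [NormedSpace ℝ G]

/-- composition, derivatives measured at scale `r` -/
lemma comp_le {g : F → G} {f : D → F} (hg : ContDiff ℝ ∞ g) (hf : ContDiff ℝ ∞ f) {r A B : ℝ}
    (hr : 0 < r) (k : ℕ) (x : D) (h1 : ∀ i ≤ k, ‖iteratedFDeriv ℝ i g (f x)‖ ≤ A * r⁻¹ ^ i)
    (h2 : ∀ i, 1 ≤ i → i ≤ k → ‖iteratedFDeriv ℝ i f x‖ ≤ B ^ i * (r * r⁻¹ ^ i)) :
    ‖iteratedFDeriv ℝ k (fun y => g (f y)) x‖ ≤ k.factorial * A * B ^ k * r⁻¹ ^ k := by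
  set gr : F → G := fun y => g (r • y) with hgr
  set fr : D → F := fun y => r⁻¹ • f (r • y) with hfr
  have hr0 : r ≠ 0 := hr.ne'
  have hgk : ∀ i : ℕ, ContDiff ℝ i g := fun i => hg.of_le (by exact_mod_cast le_top)
  have hfk : ∀ i : ℕ, ContDiff ℝ i f := fun i => hf.of_le (by exact_mod_cast le_top)
  have hgrc : ContDiff ℝ ∞ gr := hg.comp (contDiff_id.const_smul r)
  have hfrc : ContDiff ℝ ∞ fr := (hf.comp (contDiff_id.const_smul r)).const_smul r⁻¹
  have e1 : (fun y => g (f y)) = fun y => (gr ∘ fr) (r⁻¹ • y) := by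
    funext y
    simp only [hgr, hfr, Function.comp_apply, smul_smul, mul_inv_cancel₀ hr0, one_smul]
  have hcc : ContDiff ℝ k (gr ∘ fr) := (hgrc.comp hfrc).of_le (by exact_mod_cast le_top)
  rw [e1, iteratedFDeriv_comp_const_smul r⁻¹ hcc, norm_smul, Real.norm_eq_abs,
    abs_of_pos (pow_pos (inv_pos.2 hr) k)]
  have hfx : fr (r⁻¹ • x) = r⁻¹ • f x := by
    simp only [hfr, smul_smul, mul_inv_cancel₀ hr0, one_smul]
  have h3 : ∀ i ≤ k, ‖iteratedFDeriv ℝ i gr (fr (r⁻¹ • x))‖ ≤ A := by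
    intro i hi
    rw [hfx, hgr, iteratedFDeriv_comp_const_smul r (hgk i), norm_smul, Real.norm_eq_abs,
      abs_of_pos (pow_pos hr i), smul_smul, mul_inv_cancel₀ hr0, one_smul]
    calc r ^ i * ‖iteratedFDeriv ℝ i g (f x)‖ ≤ r ^ i * (A * r⁻¹ ^ i) := by
          gcongr; exact h1 i hi
      _ = A := by
          have : r ^ i * r⁻¹ ^ i = 1 := by rw [← mul_pow, mul_inv_cancel₀ hr0, one_pow]
          linear_combination A * this
  have h4 : ∀ i, 1 ≤ i → i ≤ k → ‖iteratedFDeriv ℝ i fr (r⁻¹ • x)‖ ≤ B ^ i := by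
    intro i hi1 hi
    have h5 : ContDiff ℝ i (fun z => f (r • z)) := (hfk i).comp (contDiff_id.const_smul r)
    rw [hfr, iteratedFDeriv_const_smul_apply' h5.contDiffAt, iteratedFDeriv_comp_const_smul r (hfk i),
      norm_smul, norm_smul, Real.norm_eq_abs, Real.norm_eq_abs, abs_of_pos (inv_pos.2 hr),
      abs_of_pos (pow_pos hr i), smul_smul, mul_inv_cancel₀ hr0, one_smul]
    calc r⁻¹ * (r ^ i * ‖iteratedFDeriv ℝ i f x‖) ≤ r⁻¹ * (r ^ i * (B ^ i * (r * r⁻¹ ^ i))) := by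
          gcongr; exact h2 i hi1 hi
      _ = B ^ i := by
          have e2 : r ^ i * r⁻¹ ^ i = 1 := by rw [← mul_pow, mul_inv_cancel₀ hr0, one_pow]
          have e3 : r⁻¹ * r = 1 := inv_mul_cancel₀ hr0
          linear_combination B ^ i * r⁻¹ * r * e2 + B ^ i * e3
  have h5 := norm_iteratedFDeriv_comp_le (n := k) (N := ∞) hgrc hfrc (by exact_mod_cast le_top)
    (r⁻¹ • x) h3 h4
  calc r⁻¹ ^ k * ‖iteratedFDeriv ℝ k (gr ∘ fr) (r⁻¹ • x)‖
      ≤ r⁻¹ ^ k * (k.factorial * A * B ^ k) := by gcongr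
    _ = _ := by ring

/-- product of real functions, derivatives measured at scale `r` -/
lemma mul_le {f g : D → ℝ} (hf : ContDiff ℝ ∞ f) (hg : ContDiff ℝ ∞ g) {r A B : ℝ} (hr : 0 < r)
    (hA : 0 ≤ A) (k : ℕ) (x : D) (h1 : ∀ i ≤ k, ‖iteratedFDeriv ℝ i f x‖ ≤ A * r⁻¹ ^ i)
    (h2 : ∀ i ≤ k, ‖iteratedFDeriv ℝ i g x‖ ≤ B * r⁻¹ ^ i) :
    ‖iteratedFDeriv ℝ k (fun y => f y * g y) x‖ ≤ 2 ^ k * (A * B) * r⁻¹ ^ k := by
  have h3 := norm_iteratedFDeriv_mul_le (n := k) (N := ∞) hf hg x (by exact_mod_cast le_top)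
  refine h3.trans ?_
  calc ∑ i ∈ Finset.range (k + 1), (k.choose i : ℝ) * ‖iteratedFDeriv ℝ i f x‖
        * ‖iteratedFDeriv ℝ (k - i) g x‖
      ≤ ∑ i ∈ Finset.range (k + 1), (k.choose i : ℝ) * (A * B * r⁻¹ ^ k) := by
        refine Finset.sum_le_sum fun i hi => ?_
        have hik : i ≤ k := Nat.lt_succ_iff.1 (Finset.mem_range.1 hi)
        rw [mul_assoc]
        refine mul_le_mul_of_nonneg_left ?_ (Nat.cast_nonneg _)
        calc ‖iteratedFDeriv ℝ i f x‖ * ‖iteratedFDeriv ℝ (k - i) g x‖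
            ≤ (A * r⁻¹ ^ i) * (B * r⁻¹ ^ (k - i)) :=
              mul_le_mul (h1 i hik) (h2 _ (Nat.sub_le _ _)) (norm_nonneg _) (by positivity)
          _ = A * B * (r⁻¹ ^ i * r⁻¹ ^ (k - i)) := by ring
          _ = A * B * r⁻¹ ^ k := by rw [← pow_add, Nat.add_sub_of_le hik]
    _ = 2 ^ k * (A * B) * r⁻¹ ^ k := by
        rw [← Finset.sum_mul]
        have h4 : ∑ i ∈ Finset.range (k + 1), (k.choose i : ℝ) = 2 ^ k := by
          have := Nat.sum_range_choose k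
          exact_mod_cast this
        rw [h4]; ring

/-- derivatives of a function vanish where the function vanishes nearby, also at the boundary -/
lemma iter_zero {f : D → G} (hf : ContDiff ℝ ∞ f) {ρ : ℝ} (h : ∀ x, ρ ≤ ‖x‖ → f x = 0) (i : ℕ)
    {x : D} (hx : ρ ≤ ‖x‖) : iteratedFDeriv ℝ i f x = 0 := by
  have hc : Continuous (iteratedFDeriv ℝ i f) :=
    hf.continuous_iteratedFDeriv (by exact_mod_cast le_top)
  -- at points of norm `> ρ`
  have h1 : ∀ y, ρ < ‖y‖ → iteratedFDeriv ℝ i f y = 0 := by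
    intro y hy
    have h2 : f =ᶠ[𝓝 y] fun _ => 0 := by
      filter_upwards [continuous_norm.continuousAt.eventually (lt_mem_nhds hy)] with z hz
      exact h z (le_of_lt hz)
    have h3 := (h2.iteratedFDeriv ℝ i).self_of_nhds
    rw [h3]
    simp
  rcases hx.lt_or_eq with h2 | h2
  · exact h1 x h2
  · by_cases hx0 : x = 0
    · -- `ρ = 0`
      have hρ : ρ = 0 := by rw [h2, hx0, norm_zero]
      have : f = fun _ => 0 := by
        funext y; exact h y (by rw [hρ]; exact norm_nonneg y)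
      rw [this]; simp
    · have hn : 0 < ‖x‖ := norm_pos_iff.2 hx0
      have h3 : Tendsto (fun s : ℝ => iteratedFDeriv ℝ i f (s • x)) (𝓝[>] 1)
          (𝓝 (iteratedFDeriv ℝ i f ((1:ℝ) • x))) :=
        (hc.comp (continuous_id.smul continuous_const)).continuousAt.tendsto.mono_left
          nhdsWithin_le_nhds
      rw [one_smul] at h3
      have h4 : Tendsto (fun s : ℝ => iteratedFDeriv ℝ i f (s • x)) (𝓝[>] 1) (𝓝 0) := by
        refine tendsto_const_nhds.congr' ?_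
        filter_upwards [self_mem_nhdsWithin] with s hs
        have hs1 : (1:ℝ) < s := hs
        refine (h1 _ ?_).symm
        rw [norm_smul, Real.norm_eq_abs, abs_of_pos (by linarith), h2]
        nlinarith
      exact tendsto_nhds_unique h3 h4

/-- directional derivative -/
lemma dir_le {f : D → ℝ} (hf : ContDiff ℝ ∞ f) (b : D) {r A : ℝ} (hb : ‖b‖ ≤ 1) (i : ℕ)
    (x : D) (h : ‖iteratedFDeriv ℝ (i + 1) f x‖ ≤ A) :
    ‖iteratedFDeriv ℝ i (fun y => fderiv ℝ f y b) x‖ ≤ A := by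
  have hd : ContDiff ℝ i (fderiv ℝ f) := by
    refine hf.fderiv_right ?_
    exact_mod_cast le_top
  have e1 : (fun y => fderiv ℝ f y b) = (ContinuousLinearMap.apply ℝ ℝ b) ∘ (fderiv ℝ f) := by
    funext y; rfl
  rw [e1]
  refine (ContinuousLinearMap.norm_iteratedFDeriv_comp_left _ hd.contDiffAt le_rfl).trans ?_
  rw [norm_iteratedFDeriv_fderiv]
  have h1 : ‖(ContinuousLinearMap.apply ℝ ℝ b : (D →L[ℝ] ℝ) →L[ℝ] ℝ)‖ ≤ 1 := by
    refine ContinuousLinearMap.opNorm_le_bound _ zero_le_one fun L => ?_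
    calc ‖L b‖ ≤ ‖L‖ * ‖b‖ := L.le_opNorm b
      _ ≤ ‖L‖ * 1 := by gcongr
      _ = 1 * ‖L‖ := by ring
  calc ‖(ContinuousLinearMap.apply ℝ ℝ b : (D →L[ℝ] ℝ) →L[ℝ] ℝ)‖ * ‖iteratedFDeriv ℝ (i + 1) f x‖
      ≤ 1 * A := mul_le_mul h1 h (norm_nonneg _) zero_le_one
    _ = A := one_mul A

/-- Lipschitz bound on a ball -/
lemma lip_ball {f : D → ℝ} (hf : ContDiff ℝ ∞ f) {ρ A : ℝ}
    (h : ∀ x, ‖x‖ < ρ → ‖iteratedFDeriv ℝ 1 f x‖ ≤ A) {x y : D} (hx : ‖x‖ < ρ) (hy : ‖y‖ < ρ) :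
    |f y - f x| ≤ A * ‖y - x‖ := by
  have h1 : ∀ z ∈ ball (0:D) ρ, ‖fderiv ℝ f z‖ ≤ A := by
    intro z hz
    have := h z (mem_ball_zero_iff.1 hz)
    rwa [norm_iteratedFDeriv_one] at this
  exact Convex.norm_image_sub_le_of_norm_fderiv_le (fun z _ => hf.differentiable (by simp) z) h1
    (convex_ball 0 ρ) (mem_ball_zero_iff.2 hx) (mem_ball_zero_iff.2 hy)

/-- Taylor formula of order two on a ball -/
lemma taylor_ball {f : D → ℝ} (hf : ContDiff ℝ ∞ f) {ρ A : ℝ}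
    (h : ∀ x, ‖x‖ < ρ → ‖iteratedFDeriv ℝ 2 f x‖ ≤ A) {x y : D} (hx : ‖x‖ < ρ) (hy : ‖y‖ < ρ) :
    |f y - f x - fderiv ℝ f x (y - x)| ≤ A * ‖y - x‖ ^ 2 := by
  have hA : 0 ≤ A := (norm_nonneg _).trans (h x hx)
  have hconv : Convex ℝ (ball (0:D) ρ) := convex_ball 0 ρ
  have hd1 : Differentiable ℝ (fderiv ℝ f) :=
    (hf.fderiv_right (m := ∞) (by simp)).differentiable (by simp)
  have h1 : ∀ z ∈ ball (0:D) ρ, ‖fderiv ℝ (fderiv ℝ f) z‖ ≤ A := by
    intro z hz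
    have h2 := h z (mem_ball_zero_iff.1 hz)
    rw [← norm_iteratedFDeriv_fderiv, norm_iteratedFDeriv_one] at h2
    exact h2
  -- the segment
  have hseg : segment ℝ x y ⊆ ball (0:D) ρ :=
    hconv.segment_subset (mem_ball_zero_iff.2 hx) (mem_ball_zero_iff.2 hy)
  have h3 : ∀ z ∈ segment ℝ x y, ‖fderiv ℝ f z - fderiv ℝ f x‖ ≤ A * ‖y - x‖ := by
    intro z hz
    have h4 := Convex.norm_image_sub_le_of_norm_fderiv_le (𝕜 := ℝ) (fun z _ => hd1 z) h1 hconv
      (mem_ball_zero_iff.2 hx) (hseg hz)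
    refine h4.trans ?_
    refine mul_le_mul_of_nonneg_left ?_ hA
    obtain ⟨s, hs, rfl⟩ := (segment_eq_image' ℝ x y ▸ hz : z ∈ (fun θ : ℝ => x + θ • (y - x)) '' Icc 0 1)
    simp only [add_sub_cancel_left, norm_smul, Real.norm_eq_abs, abs_of_nonneg hs.1]
    nlinarith [norm_nonneg (y - x), hs.2]
  have h5 := Convex.norm_image_sub_le_of_norm_hasFDerivWithin_le (𝕜 := ℝ)
    (f := fun z => f z - fderiv ℝ f x z) (f' := fun z => fderiv ℝ f z - fderiv ℝ f x)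
    (s := segment ℝ x y) (C := A * ‖y - x‖)
    (fun z _ => ((hf.differentiable (by simp) z).hasFDerivAt.sub
      (fderiv ℝ f x).hasFDerivAt).hasFDerivWithinAt) h3 (convex_segment x y)
    (left_mem_segment ℝ x y) (right_mem_segment ℝ x y)
  have e1 : f y - fderiv ℝ f x y - (f x - fderiv ℝ f x x) = f y - f x - fderiv ℝ f x (y - x) := by
    rw [map_sub]; ring
  rw [e1, Real.norm_eq_abs] at h5
  calc _ ≤ A * ‖y - x‖ * ‖y - x‖ := h5
    _ = _ := by ring

end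

end Vale.Agent.P214.BW2
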