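import Vale.Agent.P214.BW2.Main

/-!
# P214, block B4-W2: the estimate
-/

open Set Filter Topology MeasureTheory Metric
open scoped RealInnerProductSpace ContDiff

set_option linter.all false

namespace Vale.Agent.P214.BW2

open WIN STR

noncomputable section

variable {m n : ℕ} {E : Type*} [NormedAddCommGroup E] [InnerProductSpace ℝ E]
  [FiniteDimensional ℝ E]
variable {T T' : Submodule ℝ E}

/-- the relative height in components -/
lemma rel_sum (F : Frame m n T) (u : Fin n → REF.E m → ℝ) (y : E) :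
    KMS.rel T (F.lift u) y = ∑ a, F.ht u a y • ((F.bN a : Tᗮ) : E) := by
  have hmem : KMS.rel T (F.lift u) y ∈ Tᗮ := by
    refine Tᗮ.sub_mem ?_ (F.lift_mem u y)
    rw [FV.co_eq]
    exact Submodule.starProjection_apply_mem _ _
  have h1 := F.bN.sum_repr' ⟨_, hmem⟩
  have h2 := congrArg (Subtype.val) h1
  rw [Submodule.coe_sum] at h2
  simp only [Submodule.coe_smul, Submodule.coe_inner, F.inner_rel] at h2
  exact h2.symm

lemma pt_add_rl (F' : Frame m n T') (u' : Fin n → REF.E m → ℝ) (z y : E) :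
    pt F' u' z (F'.xc (y - z)) + rl F' u' z y = y := by
  unfold pt rl KMS.rel
  rw [KMS.up_xc, F'.lift_base, FV.co_apply]
  abel

variable {F : Frame m n T} {F' : Frame m n T'} {u u' : Fin n → REF.E m → ℝ} {z : E}

/-- the linear part -/
lemma sum_cf (F : Frame m n T) (F' : Frame m n T') (u u' : Fin n → REF.E m → ℝ) (z y : E)
    (a : Fin n) (x : REF.E m) : ∑ b, F'.ht u' b (y - z) * cf F F' u a b x
      = ⟪((F.bN a : Tᗮ) : E), rl F' u' z y⟫ - fderiv ℝ (u a) x (F.xc (rl F' u' z y)) := by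
  unfold rl
  rw [rel_sum, inner_sum, ← F.xcL_apply, map_sum, map_sum, ← Finset.sum_sub_distrib]
  refine Finset.sum_congr rfl fun b _ => ?_
  rw [real_inner_smul_right, map_smul, map_smul, F.xcL_apply, smul_eq_mul]
  unfold cf
  ring

variable [MeasurableSpace E] [BorelSpace E] {K : ℕ} {r ρ ρ' ρ₂ : ℝ} {ν : Measure E}

/-- bound of the new height by the old one, linear part -/
lemma Geo.ht_le (H : Geo F F' u u' z K r ρ ρ' ρ₂ ν) (hK : 1 ≤ K) {y : E}
    (hy : ‖F'.xc (y - z)‖ < ρ') (h1 : ‖F.xc y‖ < ρ₂)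
    (h2 : ‖gb F F' u' z (F'.xc (y - z))‖ < ρ₂) (a : Fin n) :
    |F.ht u a y - ∑ b, F'.ht u' b (y - z) * cf F F' u a b (gb F F' u' z (F'.xc (y - z)))|
        ≤ r⁻¹ * ‖rl F' u' z y‖ ^ 2 ∧ |F.ht u a y| ≤ 2 * ‖rl F' u' z y‖ := by
  have hr := H.r_pos
  set x := F'.xc (y - z) with hx
  set V := rl F' u' z y with hV
  set g := gb F F' u' z x with hg
  have hyV : y = pt F' u' z x + V := (pt_add_rl F' u' z y).symm
  have hxy : F.xc y = g + F.xc V := by
    have : F.xc (pt F' u' z x + V) = g + F.xc V := by rw [F.xc_add]; rfl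
    rwa [← hyV] at this
  have hxV : ‖F.xc V‖ ≤ ‖V‖ := norm_xc_le F V
  have h0 : F.ht u a (pt F' u' z x) = 0 := H.graph x hy h2 a
  have h3 : ⟪((F.bN a : Tᗮ) : E), pt F' u' z x⟫ = u a g := by
    exact sub_eq_zero.1 h0
  have h4 : F.ht u a y = ⟪((F.bN a : Tᗮ) : E), V⟫ - (u a (F.xc y) - u a g) := by
    have e1 : ⟪((F.bN a : Tᗮ) : E), y⟫ = ⟪((F.bN a : Tᗮ) : E), pt F' u' z x⟫
        + ⟪((F.bN a : Tᗮ) : E), V⟫ := by
      rw [← inner_add_right, ← hyV]
    unfold Frame.ht
    rw [e1, h3]; ring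
  have hd : F.xc y - g = F.xc V := by rw [hxy]; abel
  have h5 : |⟪((F.bN a : Tᗮ) : E), V⟫| ≤ ‖V‖ := by
    refine (abs_real_inner_le_norm _ _).trans ?_
    rw [F.norm_bN, one_mul]
  have h6 : |u a (F.xc y) - u a g| ≤ 1 * ‖F.xc y - g‖ := by
    refine lip_ball (H.smooth a) (ρ := ρ₂) (fun w hw => ?_) h2 h1
    have := H.bd a 1 le_rfl (by omega) w hw
    rwa [pow_one, mul_inv_cancel₀ hr.ne'] at this
  have h7 : |u a (F.xc y) - u a g - fderiv ℝ (u a) g (F.xc y - g)| ≤ r⁻¹ * ‖F.xc y - g‖ ^ 2 := by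
    refine taylor_ball (H.smooth a) (ρ := ρ₂) (fun w hw => ?_) h2 h1
    have := H.bd a 2 (by omega) (by omega) w hw
    have e2 : r * r⁻¹ ^ 2 = r⁻¹ := by rw [pow_two]; field_simp
    rwa [e2] at this
  rw [hd] at h6 h7
  constructor
  · rw [sum_cf, h4, ← hV]
    have e3 : ⟪((F.bN a : Tᗮ) : E), V⟫ - (u a (F.xc y) - u a g)
        - (⟪((F.bN a : Tᗮ) : E), V⟫ - fderiv ℝ (u a) g (F.xc V))
        = -(u a (F.xc y) - u a g - fderiv ℝ (u a) g (F.xc V)) := by ring
    rw [e3, abs_neg]
    refine h7.trans ?_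
    gcongr
  · rw [h4]
    calc |⟪((F.bN a : Tᗮ) : E), V⟫ - (u a (F.xc y) - u a g)|
        ≤ |⟪((F.bN a : Tᗮ) : E), V⟫| + |u a (F.xc y) - u a g| := abs_sub _ _
      _ ≤ ‖V‖ + 1 * ‖V‖ := add_le_add h5 (h6.trans (by gcongr))
      _ = 2 * ‖V‖ := by ring

/-- **the pointwise estimate** -/
lemma Geo.point (H : Geo F F' u u' z K r ρ ρ' ρ₂ ν) (hK : 1 ≤ K) {φ : Fin n → REF.E m → ℝ}
    {M : ℝ} (hM : 0 ≤ M) (hφ : TstR K r ρ M φ) {y : E}
    (hout : ‖F.xc y‖ < ρ → ‖F'.xc (y - z)‖ < ρ')
    (hsl : ‖F'.xc (y - z)‖ < ρ' → ‖rl F' u' z y‖ ≤ ρ₂ - ρ) :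
    (‖F'.xc (y - z)‖ < ρ' →
      |∑ a, φ a (F.xc y) * F.ht u a y
        - ∑ b, Ph F F' u u' z φ b (F'.xc (y - z)) * F'.ht u' b (y - z)|
        ≤ 3 * n * M * r⁻¹ * ‖rl F' u' z y‖ ^ 2 ∧
      |∑ a, φ a (F.xc y) * F.ht u a y| ≤ 2 * n * M * ‖rl F' u' z y‖) ∧
    (¬ ‖F'.xc (y - z)‖ < ρ' → ∑ a, φ a (F.xc y) * F.ht u a y = 0 ∧
      ∑ b, Ph F F' u u' z φ b (F'.xc (y - z)) * F'.ht u' b (y - z) = 0) := by
  have hr := H.r_pos
  constructor
  · intro hy
    set x := F'.xc (y - z) with hx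
    set V := rl F' u' z y with hV
    set g := gb F F' u' z x with hg
    have hVρ : ‖V‖ ≤ ρ₂ - ρ := hsl hy
    have hyV : y = pt F' u' z x + V := (pt_add_rl F' u' z y).symm
    have hxy : F.xc y = g + F.xc V := by
      have : F.xc (pt F' u' z x + V) = g + F.xc V := by rw [F.xc_add]; rfl
      rwa [← hyV] at this
    have hxV : ‖F.xc V‖ ≤ ‖V‖ := norm_xc_le F V
    have hsum : ∑ b, Ph F F' u u' z φ b x * F'.ht u' b (y - z)
        = ∑ a, φ a g * ∑ b, F'.ht u' b (y - z) * cf F F' u a b g := by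
      unfold Ph
      simp only [Finset.sum_mul, Finset.mul_sum]
      rw [Finset.sum_comm]
      refine Finset.sum_congr rfl fun a _ => Finset.sum_congr rfl fun b _ => ?_
      rw [← hg]; ring
    by_cases hA : ρ ≤ ‖F.xc y‖ ∧ ρ ≤ ‖g‖
    · have z1 : ∑ a, φ a (F.xc y) * F.ht u a y = 0 :=
        Finset.sum_eq_zero fun a _ => by rw [hφ.supp a _ hA.1, zero_mul]
      have z2 : ∑ b, Ph F F' u u' z φ b x * F'.ht u' b (y - z) = 0 := by
        rw [hsum]
        exact Finset.sum_eq_zero fun a _ => by rw [hφ.supp a _ hA.2, zero_mul]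
      rw [z1, z2]
      simp only [sub_zero, abs_zero]
      exact ⟨by positivity, by positivity⟩
    · have hB : ‖F.xc y‖ < ρ₂ ∧ ‖g‖ < ρ₂ := by
        have t1 : ‖F.xc y‖ ≤ ‖g‖ + ‖V‖ := by
          rw [hxy]; exact (norm_add_le _ _).trans (by linarith)
        have t2 : ‖g‖ ≤ ‖F.xc y‖ + ‖V‖ := by
          have : g = F.xc y - F.xc V := by rw [hxy]; abel
          rw [this]; exact (norm_sub_le _ _).trans (by linarith)
        rcases not_and_or.1 hA with h | h
        · have := not_le.1 h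
          exact ⟨this.trans_le H.rho_le, by linarith⟩
        · have := not_le.1 h
          exact ⟨by linarith, this.trans_le H.rho_le⟩
      have key := H.ht_le hK (y := y) hy hB.1 hB.2
      have hφL : ∀ a, |φ a (F.xc y) - φ a g| ≤ M * r⁻¹ * ‖V‖ := by
        intro a
        have hK1 : 1 ≤ K := hK
        have h1 := lip_ball (hφ.smooth a) (ρ := max ‖F.xc y‖ ‖g‖ + 1) (A := M * r⁻¹)
          (fun w _ => by have := hφ.bd a 1 hK1 w; rwa [pow_one] at this)
          (x := g) (y := F.xc y) (lt_of_le_of_lt (le_max_right _ _) (lt_add_one _))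
          (lt_of_le_of_lt (le_max_left _ _) (lt_add_one _))
        refine h1.trans ?_
        have hd : F.xc y - g = F.xc V := by rw [hxy]; abel
        rw [hd]
        gcongr
      have hφ0 : ∀ a w, |φ a w| ≤ M := by
        intro a w
        have := hφ.bd a 0 (Nat.zero_le _) w
        rwa [pow_zero, mul_one, norm_iteratedFDeriv_zero] at this
      constructor
      · rw [hsum, ← Finset.sum_sub_distrib]
        refine (Finset.abs_sum_le_sum_abs _ _).trans ?_
        calc ∑ a, |φ a (F.xc y) * F.ht u a y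
              - φ a g * ∑ b, F'.ht u' b (y - z) * cf F F' u a b g|
            ≤ ∑ _a : Fin n, 3 * M * r⁻¹ * ‖V‖ ^ 2 := by
              refine Finset.sum_le_sum fun a _ => ?_
              obtain ⟨k1, k2⟩ := key a
              have e1 : φ a (F.xc y) * F.ht u a y
                  - φ a g * ∑ b, F'.ht u' b (y - z) * cf F F' u a b g
                  = (φ a (F.xc y) - φ a g) * F.ht u a y
                    + φ a g * (F.ht u a y - ∑ b, F'.ht u' b (y - z) * cf F F' u a b g) := by
                ring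
              rw [e1]
              calc _ ≤ |φ a (F.xc y) - φ a g| * |F.ht u a y|
                    + |φ a g| * |F.ht u a y - ∑ b, F'.ht u' b (y - z) * cf F F' u a b g| := by
                    rw [← abs_mul, ← abs_mul]; exact abs_add_le _ _
                _ ≤ (M * r⁻¹ * ‖V‖) * (2 * ‖V‖) + M * (r⁻¹ * ‖V‖ ^ 2) := by
                    have := hφL a
                    have := hφ0 a g
                    gcongr
                _ = 3 * M * r⁻¹ * ‖V‖ ^ 2 := by ring
          _ = 3 * n * M * r⁻¹ * ‖V‖ ^ 2 := by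
              rw [Finset.sum_const, Finset.card_univ, Fintype.card_fin, nsmul_eq_mul]
              ring
      · refine (Finset.abs_sum_le_sum_abs _ _).trans ?_
        calc ∑ a, |φ a (F.xc y) * F.ht u a y| ≤ ∑ _a : Fin n, M * (2 * ‖V‖) := by
              refine Finset.sum_le_sum fun a _ => ?_
              rw [abs_mul]
              exact mul_le_mul (hφ0 a _) (key a).2 (abs_nonneg _) hM
          _ = 2 * n * M * ‖V‖ := by
              rw [Finset.sum_const, Finset.card_univ, Fintype.card_fin, nsmul_eq_mul]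
              ring
  · intro hy
    constructor
    · refine Finset.sum_eq_zero fun a _ => ?_
      have h1 : ρ ≤ ‖F.xc y‖ := by
        by_contra h
        exact hy (hout (not_le.1 h))
      rw [hφ.supp a _ h1, zero_mul]
    · refine Finset.sum_eq_zero fun b _ => ?_
      have h1 := (H.tst hM hφ).supp b _ (not_lt.1 hy)
      rw [h1, zero_mul]

lemma continuous_ht (F : Frame m n T) {u : Fin n → REF.E m → ℝ} (hu : ∀ a, ContDiff ℝ ∞ (u a))
    (a : Fin n) : Continuous fun y => F.ht u a y := by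
  unfold Frame.ht
  exact (continuous_const.inner continuous_id).sub ((hu a).continuous.comp F.continuous_xc)

/-- **[B4-W2] Transfer of the weak smallness.** -/
theorem weak_transfer (m n K : ℕ) (hK : 1 ≤ K) : ∃ C : ℝ, 0 ≤ C ∧ ∀ {E : Type*}
    [NormedAddCommGroup E] [InnerProductSpace ℝ E] [FiniteDimensional ℝ E] [MeasurableSpace E]
    [BorelSpace E] {T T' : Submodule ℝ E} {F : Frame m n T} {F' : Frame m n T'}
    {u u' : Fin n → REF.E m → ℝ} {z : E} {r ρ ρ' ρ₂ W : ℝ} {ν : Measure E},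
    Geo F F' u u' z K r ρ ρ' ρ₂ ν →
    (∀ (φ : Fin n → REF.E m → ℝ) (M : ℝ), TstR K r ρ' M φ →
      |∫ y, ∑ b, φ b (F'.xc (y - z)) * F'.ht u' b (y - z) ∂ν| ≤ W * M) →
    ∀ (φ : Fin n → REF.E m → ℝ) (M : ℝ), TstR K r ρ M φ →
      |∫ y, ∑ a, φ a (F.xc y) * F.ht u a y ∂ν|
        ≤ C * M * (W + r⁻¹ * ∫ y in {y | ‖F'.xc (y - z)‖ < ρ'},
          ‖KMS.rel T' (F'.lift u') (y - z)‖ ^ 2 ∂ν) := by
  refine ⟨CW n K + 3 * n, by have := CW_nn n K; positivity, ?_⟩
  intro E _ _ _ _ _ T T' F F' u u' z r ρ ρ' ρ₂ W ν H hw φ M hφ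
  have hr := H.r_pos
  -- `W ≥ 0`
  have hW : 0 ≤ W := by
    have h0 : TstR K r ρ' 1 (fun (_ : Fin n) (_ : REF.E m) => (0:ℝ)) :=
      ⟨fun _ => contDiff_const, fun _ _ _ => rfl, fun a k _ x => by
        have : iteratedFDeriv ℝ k (fun _ : REF.E m => (0:ℝ)) x = 0 := by simp
        rw [this, norm_zero]; positivity⟩
    have := (abs_nonneg _).trans (hw _ _ h0)
    linarith
  set S : Set E := {y | ‖F'.xc (y - z)‖ < ρ'} with hS
  have hSm : MeasurableSet S := by
    have : Continuous fun y => ‖F'.xc (y - z)‖ :=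
      (F'.continuous_xc.comp (continuous_id.sub continuous_const)).norm
    exact (isOpen_lt this continuous_const).measurableSet
  have hI : 0 ≤ ∫ y in S, ‖KMS.rel T' (F'.lift u') (y - z)‖ ^ 2 ∂ν :=
    integral_nonneg fun _ => by positivity
  rcases Nat.eq_zero_or_pos n with hn0 | hn0
  · -- no components
    subst hn0
    have e1 : ∀ y, ∑ a : Fin 0, φ a (F.xc y) * F.ht u a y = 0 := fun y => by simp
    simp only [e1, integral_zero, abs_zero]
    have h1 : TstR K r ρ' (-1) (fun (_ : Fin 0) (_ : REF.E m) => (0:ℝ)) :=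
      ⟨fun a => a.elim0, fun a => a.elim0, fun a => a.elim0⟩
    have h2 := (abs_nonneg _).trans (hw _ _ h1)
    have hW0 : W = 0 := by linarith
    have h3 : ∀ y, KMS.rel T' (F'.lift u') (y - z) = 0 := fun y => by
      rw [rel_sum]; simp
    simp only [h3, norm_zero]
    rw [hW0]
    simp
  · haveI : NeZero n := ⟨by omega⟩
    have hM : 0 ≤ M := TstR.M_nn hφ
    have hC0 := CW_nn n K
    set f : E → ℝ := fun y => ∑ a, φ a (F.xc y) * F.ht u a y with hf
    set f' : E → ℝ := fun y => ∑ b, Ph F F' u u' z φ b (F'.xc (y - z)) * F'.ht u' b (y - z)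
      with hf'
    have hT := H.tst hM hφ
    have hfc : Continuous f := by
      refine continuous_finset_sum _ fun a _ => ?_
      exact ((hφ.smooth a).continuous.comp F.continuous_xc).mul (continuous_ht F H.smooth a)
    have hsub : Continuous fun y : E => y - z := continuous_id.sub continuous_const
    have hf'c : Continuous f' := by
      refine continuous_finset_sum _ fun b _ => ?_
      exact ((hT.smooth b).continuous.comp (F'.continuous_xc.comp hsub)).mul
        ((continuous_ht F' H.smooth' b).comp hsub)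
    have hVc : Continuous fun y => KMS.rel T' (F'.lift u') (y - z) := by
      unfold KMS.rel
      exact ((FV.co T').continuous.comp hsub).sub
        ((F'.continuous_lift fun a => (H.smooth' a).continuous).comp hsub)
    -- the pointwise facts
    have hpt : ∀ᵐ y ∂ν, (y ∈ S → |f y - f' y| ≤ 3 * n * M * r⁻¹ * ‖rl F' u' z y‖ ^ 2 ∧
        |f y| ≤ 2 * n * M * ‖rl F' u' z y‖ ∧ ‖rl F' u' z y‖ ≤ ρ₂ - ρ) ∧
        (y ∉ S → f y = 0 ∧ f' y = 0) := by
      filter_upwards [H.out, H.slab] with y h1 h2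
      have h3 := H.point hK hM hφ h1 h2
      exact ⟨fun hy => ⟨(h3.1 hy).1, (h3.1 hy).2, h2 hy⟩, fun hy => h3.2 hy⟩
    set R := ρ₂ - ρ with hR
    have hRnn : 0 ≤ R := sub_nonneg.2 H.rho_le
    have hfin : IsFiniteMeasure (ν.restrict S) := ⟨by
      rw [Measure.restrict_apply_univ]; exact H.fin⟩
    -- restrict to `S`
    have hfS : ∫ y, f y ∂ν = ∫ y in S, f y ∂ν := by
      rw [← integral_indicator hSm]
      refine integral_congr_ae ?_
      filter_upwards [hpt] with y hy
      by_cases h : y ∈ S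
      · rw [indicator_of_mem h]
      · rw [indicator_of_notMem h, (hy.2 h).1]
    have hf'S : ∫ y, f' y ∂ν = ∫ y in S, f' y ∂ν := by
      rw [← integral_indicator hSm]
      refine integral_congr_ae ?_
      filter_upwards [hpt] with y hy
      by_cases h : y ∈ S
      · rw [indicator_of_mem h]
      · rw [indicator_of_notMem h, (hy.2 h).2]
    have hptS : ∀ᵐ y ∂(ν.restrict S), |f y - f' y| ≤ 3 * n * M * r⁻¹ * ‖rl F' u' z y‖ ^ 2 ∧
        |f y| ≤ 2 * n * M * ‖rl F' u' z y‖ ∧ ‖rl F' u' z y‖ ≤ R := by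
      have h1 := ae_restrict_of_ae (s := S) hpt
      filter_upwards [h1, ae_restrict_mem hSm] with y h2 h3
      exact h2.1 h3
    have hi1 : Integrable f (ν.restrict S) := by
      refine Integrable.mono' (integrable_const (2 * n * M * R)) hfc.aestronglyMeasurable ?_
      filter_upwards [hptS] with y hy
      rw [Real.norm_eq_abs]
      refine hy.2.1.trans ?_
      have := hy.2.2
      gcongr
    have hi2 : Integrable (fun y => ‖rl F' u' z y‖ ^ 2) (ν.restrict S) := by
      refine Integrable.mono' (integrable_const (R ^ 2))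
        ((hVc.norm.pow 2).aestronglyMeasurable) ?_
      filter_upwards [hptS] with y hy
      rw [Real.norm_eq_abs, abs_of_nonneg (by positivity)]
      have := hy.2.2
      gcongr
    have hi3 : Integrable (fun y => f y - f' y) (ν.restrict S) := by
      refine Integrable.mono' (hi2.const_mul (3 * n * M * r⁻¹))
        (hfc.sub hf'c).aestronglyMeasurable ?_
      filter_upwards [hptS] with y hy
      rw [Real.norm_eq_abs]
      exact hy.1
    have hi4 : Integrable f' (ν.restrict S) := by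
      have : f' = fun y => f y - (f y - f' y) := by funext y; ring
      rw [this]
      exact hi1.sub hi3
    have h5 : |∫ y in S, (f y - f' y) ∂ν| ≤ 3 * n * M * r⁻¹ * ∫ y in S, ‖rl F' u' z y‖ ^ 2 ∂ν := by
      rw [← integral_const_mul, ← Real.norm_eq_abs]
      refine norm_integral_le_of_norm_le (hi2.const_mul _) ?_
      filter_upwards [hptS] with y hy
      rw [Real.norm_eq_abs]
      exact hy.1
    have h6 : |∫ y in S, f' y ∂ν| ≤ W * (CW n K * M) := by
      rw [← hf'S]
      exact hw _ _ hT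
    have h7 : ∫ y in S, f y ∂ν = ∫ y in S, f' y ∂ν + ∫ y in S, (f y - f' y) ∂ν := by
      rw [← integral_add hi4 hi3]
      refine integral_congr_ae (Eventually.of_forall fun y => ?_)
      simp
    change |∫ y, f y ∂ν| ≤ _
    rw [hfS, h7]
    refine (abs_add_le _ _).trans ?_
    have h8 : ∫ y in S, ‖rl F' u' z y‖ ^ 2 ∂ν
        = ∫ y in S, ‖KMS.rel T' (F'.lift u') (y - z)‖ ^ 2 ∂ν := rfl
    rw [h8] at h5
    set I := ∫ y in S, ‖KMS.rel T' (F'.lift u') (y - z)‖ ^ 2 ∂ν with hIdef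
    have hri : 0 ≤ r⁻¹ := (inv_pos.2 hr).le
    calc |∫ y in S, f' y ∂ν| + |∫ y in S, (f y - f' y) ∂ν|
        ≤ W * (CW n K * M) + 3 * n * M * r⁻¹ * I := add_le_add h6 h5
      _ ≤ (CW n K + 3 * n) * M * (W + r⁻¹ * I) := by
          have t1 : 0 ≤ CW n K * M * (r⁻¹ * I) := by positivity
          have t2 : 0 ≤ 3 * (n:ℝ) * M * W := by positivity
          nlinarith

end

end Vale.Agent.P214.BW2
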